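import Mathlib

open Finset

namespace Vale.Agent.Lib.P037E

open scoped Classical in
/-- The ordered copies of a `k × k` binary pattern `H` in an `n × n` binary matrix `A`:
pairs `(r, c)` of strictly increasing index maps with `A (r i) (c j) = H i j` for all `i, j`. -/
noncomputable def copies {k n : ℕ} (H : Fin k → Fin k → Bool) (A : Fin n → Fin n → Bool) :
    Finset ((Fin k → Fin n) × (Fin k → Fin n)) :=
  univ.filter (fun p => StrictMono p.1 ∧ StrictMono p.2 ∧ ∀ i j, A (p.1 i) (p.2 j) = H i j)

/-- `N_H(A)`: the number of ordered copies of `H` in `A`. -/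
noncomputable def countCopies {k n : ℕ} (H : Fin k → Fin k → Bool)
    (A : Fin n → Fin n → Bool) : ℕ :=
  (copies H A).card

/-- The number of entries in which two matrices differ. -/
def diffCount {n : ℕ} (A B : Fin n → Fin n → Bool) : ℕ :=
  (univ.filter (fun q : Fin n × Fin n => A q.1 q.2 ≠ B q.1 q.2)).card

/-- `dist_H(A)`: the least, over `H`-free `B`, of the fraction of entries where `A`, `B` differ. -/
noncomputable def distH {k n : ℕ} (H : Fin k → Fin k → Bool) (A : Fin n → Fin n → Bool) : ℝ :=
  sInf {d : ℝ | ∃ B : Fin n → Fin n → Bool, countCopies H B = 0 ∧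
    d = (diffCount A B : ℝ) / (n : ℝ) ^ 2}

end Vale.Agent.Lib.P037E
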